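import Vale.Agent.P231.H512.Main
import Vale.Agent.P231.QF.Main
import Vale.Agent.P231Z.Oct.Main
import Vale.Agent.P231Z.Sph.Sphere
import Vale.Agent.P231Z.Sph.Proj

/-! P231: the case distinction on the multiplicity of the cut points. -/

set_option maxSynthPendingDepth 3
set_option linter.unusedSectionVars false
set_option linter.unusedVariables false

open Bundle Manifold Set Filter Module MeasureTheory
open scoped ContDiff Manifold Topology ENNReal

namespace Vale.Agent.P231Z.Fin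

noncomputable section

open Vale.Agent.P234 Vale.Agent.P231 Vale.Agent.P231.H703 Vale.Agent.P231.H512

variable {E : Type*} [NormedAddCommGroup E] [NormedSpace ℝ E]
  {M : Type*} [MetricSpace M] [ChartedSpace E M]
  [RiemannianBundle (fun x : M => TangentSpace 𝓘(ℝ, E) x)]
  {e : ∀ x : M, TangentSpace 𝓘(ℝ, E) x → M}
  [FiniteDimensional ℝ E] [IsManifold 𝓘(ℝ, E) ∞ M]
  [IsContMDiffRiemannianBundle 𝓘(ℝ, E) ∞ E (fun x : M => TangentSpace 𝓘(ℝ, E) x)]
  [CompactSpace M] [ConnectedSpace M] [IsRiemannianManifold 𝓘(ℝ, E) M]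

/-- the volume inequality for the multiplicity `l` in dimension `N + 1` -/
def VolLe (e : ∀ x : M, TangentSpace 𝓘(ℝ, E) x → M) (N l : ℕ) : Prop :=
  ∀ [MeasurableSpace M] [BorelSpace M] (F : Facts e) (D : ℝ) (hD : 0 < D) (hB : InjGE e D)
    (hdiam : ∀ p q : M, dist p q ≤ D),
    (∀ x y : M, dist x y = D → finrank ℝ (H775.Pl e D x y) = l + 1) → finrank ℝ E = N + 1 →
    Blaschke.riemannianVolume (N + 1) M univ ≤ ENNReal.ofReal (Blaschke.modelVolume N l D)

theorem rig_of_volLe (he : IsExp e) (hinj : Blaschke.InjGeDiam e) {N l : ℕ}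
    (hN : finrank ℝ E = N + 1) (hl : IsLeast {k | Blaschke.MultLE e k} l) (hV : VolLe e N l) :
    Rig e (Metric.diam (univ : Set M)) l := by
  borelize M
  have F : Facts e := facts_of_isExp he
  obtain ⟨x₀⟩ : Nonempty M := inferInstance
  have hD : 0 < Metric.diam (univ : Set M) := diam_pos he hN x₀
  have hB : InjGE e (Metric.diam (univ : Set M)) := injGE_of_injOn F hD hinj
  have hd : ∀ x y : M, dist x y ≤ Metric.diam (univ : Set M) := fun x y =>
    Metric.dist_le_diam_of_mem (isCompact_univ.isBounded) (mem_univ x) (mem_univ y)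
  obtain ⟨-, h2, hP⟩ := mult_of_isLeast he F hD hB hd rfl hN hl
  exact rig_of_volume he hinj hN hl (hV F _ hD hB hd hP hN)

/-- the Cayley plane, from the volume inequality -/
theorem op2_of (he : IsExp e) (hinj : Blaschke.InjGeDiam e) (hdim : finrank ℝ E = 16)
    (hl : IsLeast {k | Blaschke.MultLE e k} 7) (hV : VolLe e 15 7) :
    ∃ Z : M → Alb, (∀ x, Ver (Z x)) ∧
      (∀ x y, dist x y = 2 * Metric.diam (univ : Set M) / Real.pi *
        Real.arccos (√(ipA (Z x) (Z y)))) ∧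
      ∀ X, Ver X → ∃ x, Z x = X :=
  isometric_op2 (rig_of_volLe he hinj (N := 15) hdim hl hV) hdim

theorem exists_isLeast (e : ∀ x : M, TangentSpace 𝓘(ℝ, E) x → M) :
    ∃ l, IsLeast {k | Blaschke.MultLE e k} l := by
  classical
  have h1 : ∃ k, Blaschke.MultLE e k := by
    refine ⟨finrank ℝ E, fun x v hv w hw => ?_⟩
    have hfin : FiniteDimensional ℝ (TangentSpace 𝓘(ℝ, E) x) :=
      inferInstanceAs (FiniteDimensional ℝ E)
    have h2 := hw.fintype_card_le_finrank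
    rw [Fintype.card_fin] at h2
    have h3 : finrank ℝ (TangentSpace 𝓘(ℝ, E) x) = finrank ℝ E := rfl
    omega
  exact ⟨Nat.find h1, Nat.find_spec h1, fun k hk => Nat.find_min' h1 hk⟩

/-- the possible multiplicities -/
def Cls (e : ∀ x : M, TangentSpace 𝓘(ℝ, E) x → M) : Prop :=
  ∀ (F : Facts e) (D : ℝ) (hD : 0 < D) (hB : InjGE e D) (hdiam : ∀ p q : M, dist p q ≤ D)
    (l : ℕ), (∀ x y : M, dist x y = D → finrank ℝ (H775.Pl e D x y) = l + 1) → 2 ≤ l →
    l + 1 < finrank ℝ E → l = 3 ∨ (l = 7 ∧ finrank ℝ E = 16)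

theorem cls_of
    (h0 : ∀ {T : Type _} [NormedAddCommGroup T] [InnerProductSpace ℝ T] [FiniteDimensional ℝ T]
      {n : ℕ} {Pi : T → T →L[ℝ] T}, FE.Spread n Pi → 3 ≤ n → n < finrank ℝ T →
      T = E → Even n)
    (h1 : ∀ {D : ℝ} {m k : ℕ} {p : M}
      {o : TangentSpace 𝓘(ℝ, E) p → Fm.Lam (TangentSpace 𝓘(ℝ, E) p)}
      {ρ : TangentSpace 𝓘(ℝ, E) p → ℝ} {r₀ : ℝ}, 2 ≤ m → 2 ≤ k → finrank ℝ E = (2 * m + 2) * k →
      X3.Geo e D (2 * m + 1) → FE.LineP e D p m (FE.PiP e D p) o → WE.Rho e D p ρ r₀ →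
      k = 2 ∧ m = 3) : Cls e := by
  intro F D hD hB hdiam l hP hl hlt
  obtain ⟨p⟩ : Nonempty M := inferInstance
  have hfin : FiniteDimensional ℝ (TangentSpace 𝓘(ℝ, E) p) :=
    inferInstanceAs (FiniteDimensional ℝ E)
  obtain ⟨r, hr⟩ := h0 (FE.spread F hD hB hdiam hP p) (by omega) hlt rfl
  obtain ⟨m, rfl⟩ : ∃ m, l = 2 * m + 1 := ⟨r - 1, by omega⟩
  rcases Nat.lt_or_ge m 2 with hm | hm
  · left
    omega
  · right
    obtain ⟨k, hk⟩ := CoZ.dvd_finrank F hD hB hdiam (n := m) hP (by omega)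
    obtain ⟨o, hJ⟩ := FE.exists_line F hD hB hdiam (n := m) hP (by omega) p
    obtain ⟨ρ, r₀, hρ⟩ := WQ.exists_rho (E := E) (e := e) (p := p) hD
    have hk2 : 2 ≤ k := by
      rcases Nat.lt_or_ge k 2 with h | h
      · interval_cases k <;> omega
      · exact h
    obtain ⟨rfl, rfl⟩ := h1 hm hk2 hk ⟨F, hD, hB, hdiam, hP⟩ hJ hρ
    exact ⟨rfl, hk⟩

/-- **the metric Blaschke conjecture** from the volume inequalities and the list of the possible
multiplicities -/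
theorem main_of (he : IsExp e) (hinj : Blaschke.InjGeDiam e) (hdim : 1 ≤ finrank ℝ E)
    (hS : ∀ N, 1 ≤ N → VolLe e N N) (hR : ∀ N, 1 ≤ N → VolLe e N 0) (hO : VolLe e 15 7)
    (hC : Cls e) :
    (∃ Z : M → EuclideanSpace ℝ (Fin (finrank ℝ E + 1)), (∀ x, ‖Z x‖ = 1) ∧
      (∀ x y, dist x y = Metric.diam (univ : Set M) / Real.pi *
        Real.arccos (inner ℝ (Z x) (Z y))) ∧
      ∀ z, ‖z‖ = 1 → ∃ x, Z x = z) ∨
    (∃ Z : M → EuclideanSpace ℝ (Fin (finrank ℝ E + 1)), (∀ x, ‖Z x‖ = 1) ∧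
      (∀ x y, dist x y = 2 * Metric.diam (univ : Set M) / Real.pi *
        Real.arccos |(inner ℝ (Z x) (Z y) : ℝ)|) ∧
      ∀ z, ‖z‖ = 1 → ∃ x, |(inner ℝ (Z x) z : ℝ)| = 1) ∨
    (∃ n : ℕ, 2 * n = finrank ℝ E ∧ ∃ Z : M → Fin (n + 1) → ℂ,
      (∀ x, ∑ i, ‖Z x i‖ ^ 2 = 1) ∧
      (∀ x y, dist x y = 2 * Metric.diam (univ : Set M) / Real.pi *
        Real.arccos ‖∑ i, starRingEnd ℂ (Z x i) * Z y i‖) ∧
      ∀ z : Fin (n + 1) → ℂ, ∑ i, ‖z i‖ ^ 2 = 1 →
        ∃ x, ‖∑ i, starRingEnd ℂ (Z x i) * z i‖ = 1) ∨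
    (∃ n : ℕ, 4 * n = finrank ℝ E ∧ ∃ Z : M → Fin (n + 1) → Quaternion ℝ,
      (∀ x, ∑ i, ‖Z x i‖ ^ 2 = 1) ∧
      (∀ x y, dist x y = 2 * Metric.diam (univ : Set M) / Real.pi *
        Real.arccos ‖∑ i, star (Z x i) * Z y i‖) ∧
      ∀ z : Fin (n + 1) → Quaternion ℝ, ∑ i, ‖z i‖ ^ 2 = 1 →
        ∃ x, ‖∑ i, star (Z x i) * z i‖ = 1) ∨
    (finrank ℝ E = 16 ∧ ∃ Z : M → Alb, (∀ x, Ver (Z x)) ∧
      (∀ x y, dist x y = 2 * Metric.diam (univ : Set M) / Real.pi *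
        Real.arccos (√(ipA (Z x) (Z y)))) ∧
      ∀ X, Ver X → ∃ x, Z x = X) := by
  obtain ⟨N, hN⟩ : ∃ N, finrank ℝ E = N + 1 := ⟨finrank ℝ E - 1, by omega⟩
  rcases Nat.eq_zero_or_pos N with rfl | hN1
  · left
    rw [hN]
    exact Sph.isometric_circle he hinj hN
  obtain ⟨l, hl⟩ := exists_isLeast e
  have F : Facts e := facts_of_isExp he
  obtain ⟨x₀⟩ : Nonempty M := inferInstance
  have hD : 0 < Metric.diam (univ : Set M) := diam_pos he hN x₀
  have hB : InjGE e (Metric.diam (univ : Set M)) := injGE_of_injOn F hD hinj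
  have hd : ∀ x y : M, dist x y ≤ Metric.diam (univ : Set M) := fun x y =>
    Metric.dist_le_diam_of_mem (isCompact_univ.isBounded) (mem_univ x) (mem_univ y)
  obtain ⟨h1, -, hP⟩ := mult_of_isLeast he F hD hB hd rfl hN hl
  rcases eq_or_lt_of_le h1 with rfl | h2
  · left
    rw [hN]
    exact Sph.isometric_sphere (rig_of_volLe he hinj hN hl (hS _ hN1)) hN
  rcases Nat.eq_zero_or_pos l with rfl | h3
  · right; left
    rw [hN]
    exact Sph.isometric_proj (rig_of_volLe he hinj hN hl (hR _ hN1)) hN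
  rcases eq_or_lt_of_le (show 1 ≤ l from h3) with rfl | h4
  · right; right; left
    exact main_fs' he hinj (by omega) hl
  rcases hC F _ hD hB hd l hP h4 (by omega) with rfl | ⟨rfl, h5⟩
  · right; right; right; left
    exact QF.main_hp he hinj (by omega) hl
  · right; right; right; right
    exact ⟨h5, op2_of he hinj h5 hl hO⟩

end

end Vale.Agent.P231Z.Fin
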